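import Vale.Agent.P283.M647.Props
import Vale.Agent.P283.M647.C1

/-!
Row C3: the lower bound in a flat.
-/

set_option linter.all false

namespace Vale.Agent.P283.M647.H677C3

open Vale.Agent.P283.T647 (psum fval Triv)
open C1

variable {P ι : Type} [Fintype P] [DecidableEq P] [Fintype ι]

theorem psum_nonneg {pg : ι → Option P} {s : ι → ℕ} {c : ι → ℝ} (hc : ∀ j, 0 ≤ c j) (p : P) :
    0 ≤ psum pg s c p := by
  unfold psum
  refine Finset.sum_nonneg fun j _ => ?_
  split_ifs
  · exact mul_nonneg (hc j) (Nat.cast_nonneg _)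
  · exact le_refl _

theorem psum_zero {pg : ι → Option P} {s : ι → ℕ} {c : ι → ℝ} {p : P}
    (hc : ∀ j, pg j = some p → c j = 0) : psum pg s c p = 0 := by
  unfold psum
  refine Finset.sum_eq_zero fun j _ => ?_
  split_ifs with h
  · rw [hc j h, zero_mul]
  · rfl

theorem psum_add {pg : ι → Option P} {s : ι → ℕ} (c e : ι → ℝ) (p : P) :
    psum pg s (fun j => c j + e j) p = psum pg s c p + psum pg s e p := by
  rw [psum_eq, psum_eq, psum_eq, ← Finset.sum_add_distrib]
  exact Finset.sum_congr rfl fun j _ => by ring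

/-- A basis of largest weight. -/
theorem exch_le {n : ℕ} {𝓑 : Finset (Finset P)} {C : Finset P → P → Finset P} (hM : IsMat n 𝓑 C)
    {W : P → ℝ} {B : Finset P} (hBm : B ∈ 𝓑)
    (hmax : ∀ B' ∈ 𝓑, ∑ p ∈ B', W p ≤ ∑ p ∈ B, W p) :
    ∀ p, ∀ b ∈ C B p, W p ≤ W b := by
  intro p b hb
  by_cases hpB : p ∈ B
  · rw [hM.self B hBm p hpB, Finset.mem_singleton] at hb
    rw [hb]
  · have hbB : b ∈ B := hM.sub B hBm p hb
    have h3 := hmax _ (hM.exch B hBm p b hb)
    have h4 : p ∉ B.erase b := fun h => hpB (Finset.mem_of_mem_erase h)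
    have h5 := Finset.add_sum_erase B W hbB
    rw [Finset.sum_insert h4] at h3
    linarith

/-- The least weight on the fundamental circuits. -/
theorem exists_low {n : ℕ} {𝓑 : Finset (Finset P)} {C : Finset P → P → Finset P}
    (hM : IsMat n 𝓑 C) (W : P → ℝ) {B : Finset P} (hBm : B ∈ 𝓑) :
    ∃ V : P → ℝ, (∀ p, ∀ b ∈ C B p, V p ≤ W b) ∧ (∀ p, ∃ b ∈ C B p, V p = W b) ∧
      (∀ p ∈ B, V p = W p) ∧ Ad C B V := by
  have h1 : ∀ p, ∃ x, (∀ b ∈ C B p, x ≤ W b) ∧ ∃ b ∈ C B p, x = W b := by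
    intro p
    obtain ⟨b, hb, h⟩ := (C B p).exists_min_image W (hM.nz B hBm p)
    exact ⟨W b, h, b, hb, rfl⟩
  choose V hV1 hV2 using h1
  have hVB : ∀ p ∈ B, V p = W p := by
    intro p hp
    obtain ⟨b, hb, e⟩ := hV2 p
    rw [hM.self B hBm p hp, Finset.mem_singleton] at hb
    rw [e, hb]
  refine ⟨V, hV1, hV2, hVB, fun p => ⟨fun b hb => ?_, ?_⟩⟩
  · rw [hVB b (hM.sub B hBm p hb)]
    exact hV1 p b hb
  · obtain ⟨b, hb, e⟩ := hV2 p
    exact ⟨b, hb, by rw [hVB b (hM.sub B hBm p hb)]; exact e⟩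

end Vale.Agent.P283.M647.H677C3

namespace Vale.Agent.P283.M647

open Vale.Agent.P283.T647 (psum fval Triv)
open C1 H677C3

theorem c3' : FlatIneq := by
  classical
  intro P ι _ _ _ k g q δ 𝓑 C pg s w κ hB B₀ hB₀ F hF hp₁ hp c hc hc0 hint b hb hne
  obtain ⟨p₁, hp₁⟩ := hp₁
  have hM := hB.mat
  have hj₀ : Nonempty ι := by
    by_contra h
    rw [not_nonempty_iff] at h
    rcases hne with ⟨p, hp⟩ | h1
    · exact hp (psum_zero fun j => h.elim j)
    · refine h1 (funext fun i => ?_)
      have h2 := hb i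
      rw [Finset.univ_eq_empty, Finset.sum_empty] at h2
      exact_mod_cast h2
  obtain ⟨j₀⟩ := hj₀
  have hW0 : ∀ p, 0 ≤ psum pg s c p := psum_nonneg hc
  have hWF : ∀ p, p ∉ F → psum pg s c p = 0 := fun p hpF => psum_zero fun j hj => hc0 j p hj hpF
  obtain ⟨B, hBm, hmax⟩ := 𝓑.exists_max_image (fun B => ∑ p ∈ B, psum pg s c p) hM.ne
  have hex := exch_le hM hBm hmax
  obtain ⟨V, hV1, hV2, hVB, hAd⟩ := exists_low hM (psum pg s c) hBm
  have hVW : ∀ p, psum pg s c p ≤ V p := by
    intro p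
    obtain ⟨b', hb', e⟩ := hV2 p
    rw [e]
    exact hex p b' hb'
  have hVF : ∀ p, p ∉ F → V p = 0 := by
    intro p hpF
    obtain ⟨x, hx, e⟩ := (hF p).2
    dsimp only at e
    rw [if_neg hpF] at e
    have hxF : x ∉ F := by
      intro hxF
      rw [if_pos hxF] at e
      exact zero_ne_one e
    obtain ⟨y, hy, hxy⟩ := hM.trans B hBm B₀ hB₀ p x hx
    have h1 := (hF y).1 x hxy
    dsimp only at h1
    rw [if_neg hxF] at h1
    have hyF : y ∉ F := by
      intro hyF
      rw [if_pos hyF] at h1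
      linarith
    have h2 := hV1 p y hy
    rw [hWF y hyF] at h2
    have h3 := hVW p
    rw [hWF p hpF] at h3
    exact le_antisymm h2 h3
  -- the rays
  have hch : ∀ p : P, ∃ j, p ∈ F →
      (pg j = some p ∧ (¬ Triv q pg s κ p → ¬ (s j = 1 ∧ κ j = q))) := by
    intro p
    by_cases hpF : p ∈ F
    · by_cases h : Triv q pg s κ p
      · obtain ⟨j, hj⟩ := hp p hpF
        exact ⟨j, fun _ => ⟨hj, fun h' => absurd h h'⟩⟩
      · have h1 := h
        unfold Triv at h1
        push Not at h1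
        obtain ⟨j, hj, hj'⟩ := h1
        exact ⟨j, fun _ => ⟨hj, fun _ e => hj' e.1 e.2⟩⟩
    · exact ⟨j₀, fun h => absurd h hpF⟩
  choose l hl using hch
  have hD0 : ∀ p, 0 ≤ V p - psum pg s c p := fun p => by linarith [hVW p]
  obtain ⟨c', hc'⟩ : ∃ c' : ι → ℝ, c' = fun j => c j + ∑ p ∈ F, if l p = j then
      (V p - psum pg s c p) / s (l p) else 0 := ⟨_, rfl⟩
  have hc'0 : ∀ j, 0 ≤ c' j := by
    intro j
    rw [hc']
    refine add_nonneg (hc j) (Finset.sum_nonneg fun p _ => ?_)
    split_ifs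
    · exact div_nonneg (hD0 p) (Nat.cast_nonneg _)
    · exact le_refl _
  have hps : ∀ p, psum pg s c' p = V p := by
    intro p
    rw [hc', psum_add, psum_put hB.pos F l (fun p hp => (hl p hp).1)
      (fun p => V p - psum pg s c p) p]
    split_ifs with h
    · ring
    · rw [hWF p h, hVF p h]
      ring
  have hsum : ∀ G : ι → ℝ, ∑ j, c' j * G j =
      ∑ j, c j * G j + ∑ p ∈ F, (V p - psum pg s c p) / s (l p) * G (l p) := by
    intro G
    rw [hc', ← sum_put F l (fun p => (V p - psum pg s c p) / s (l p)), ← Finset.sum_add_distrib]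
    exact Finset.sum_congr rfl fun j _ => by ring
  have hps' : psum pg s c' = V := funext hps
  -- the values
  have hval : vl q pg s κ F c B = vl q pg s κ Finset.univ c' B +
      ∑ p ∈ F, (V p - psum pg s c p) * (q - (κ (l p) : ℝ) / s (l p)) := by
    unfold vl
    rw [hsum, hps']
    have e1 : ∑ p ∈ Finset.univ \ B, V p = ∑ p ∈ F \ B, V p := by
      refine (Finset.sum_subset (Finset.sdiff_subset_sdiff (Finset.subset_univ _)
        (Finset.Subset.refl _)) ?_).symm
      intro p hp hpn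
      refine hVF p fun hpF => hpn (Finset.mem_sdiff.mpr ⟨hpF, (Finset.mem_sdiff.mp hp).2⟩)
    have e2 : ∑ p ∈ F \ B, (V p - psum pg s c p) = ∑ p ∈ F, (V p - psum pg s c p) := by
      refine Finset.sum_subset Finset.sdiff_subset ?_
      intro p hp hpn
      have hpB : p ∈ B := by
        by_contra h
        exact hpn (Finset.mem_sdiff.mpr ⟨hp, h⟩)
      rw [hVB p hpB]
      ring
    rw [Finset.sum_sub_distrib] at e2
    have e3 : ∑ p ∈ F, (V p - psum pg s c p) * (q - (κ (l p) : ℝ) / s (l p)) =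
        q * ∑ p ∈ F, (V p - psum pg s c p) -
          ∑ p ∈ F, (V p - psum pg s c p) / s (l p) * (κ (l p) : ℝ) := by
      rw [Finset.mul_sum, ← Finset.sum_sub_distrib]
      exact Finset.sum_congr rfl fun p _ => by ring
    rw [e1, e3, ← e2]
    ring
  have hterm : ∀ p ∈ F, 0 ≤ (V p - psum pg s c p) * (q - (κ (l p) : ℝ) / s (l p)) := by
    intro p hpF
    refine mul_nonneg (hD0 p) ?_
    have hs := hB.pos (l p) p (hl p hpF).1
    have hs' : (1 : ℝ) ≤ s (l p) := by exact_mod_cast hs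
    have hκ' : (κ (l p) : ℝ) ≤ q := by exact_mod_cast hB.κq (l p)
    have hq0 : (0 : ℝ) ≤ q := by positivity
    rw [sub_nonneg, div_le_iff₀ (by linarith)]
    nlinarith
  -- integral values
  have hVi : ∀ p, ∃ n : ℤ, V p = n := by
    intro p
    obtain ⟨b', -, e⟩ := hV2 p
    rw [e]
    exact hint b'
  by_cases hcase : ∃ p ∈ F, ¬ Triv q pg s κ p ∧ V p ≠ psum pg s c p
  · -- a non-trivial page is raised
    obtain ⟨p, hpF, hnt, hVp⟩ := hcase
    refine ⟨B, hBm, ?_⟩
    have h1 : 0 ≤ vl q pg s κ Finset.univ c' B := hB.nn c' hc'0 B hBm (by rw [hps']; exact hAd)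
    have h2 : (V p - psum pg s c p) * (q - (κ (l p) : ℝ) / s (l p)) ≤
        ∑ p ∈ F, (V p - psum pg s c p) * (q - (κ (l p) : ℝ) / s (l p)) :=
      Finset.single_le_sum hterm hpF
    have h3 := ratio_le (hB.pos (l p) p (hl p hpF).1) (hB.κq (l p)) hB.q0 ((hl p hpF).2 hnt)
    have h4 : 1 ≤ V p - psum pg s c p := by
      obtain ⟨n, hn⟩ := hVi p
      obtain ⟨m, hm⟩ := hint p
      have h5 := hVW p
      rw [hn, hm] at h5 hVp ⊢
      have h6 : m < n := lt_of_le_of_ne (by exact_mod_cast h5) fun h => hVp (by rw [h])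
      have h7 : m + 1 ≤ n := h6
      have h8 : (m : ℝ) + 1 ≤ n := by exact_mod_cast h7
      linarith
    have h5 : (1 : ℝ) / 2 ≤ (V p - psum pg s c p) * (q - (κ (l p) : ℝ) / s (l p)) := by
      nlinarith
    rw [hval]
    have := min_le_right δ (1 / 2 : ℝ)
    linarith
  · -- all raised pages are trivial
    push Not at hcase
    refine ⟨B, hBm, ?_⟩
    have hcf : ∀ p ∈ F, ∃ n : ℤ, (V p - psum pg s c p) / s (l p) = n := by
      intro p hpF
      by_cases ht : Triv q pg s κ p
      · rw [(ht (l p) (hl p hpF).1).1]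
        obtain ⟨n, hn⟩ := hVi p
        obtain ⟨m, hm⟩ := hint p
        exact ⟨n - m, by rw [hn, hm]; push_cast; ring⟩
      · exact ⟨0, by rw [hcase p hpF ht]; simp⟩
    choose! n hn using hcf
    have hb' : ∀ i, ((b i + ∑ p ∈ F, n p * w (l p) i : ℤ) : ℝ) = ∑ j, c' j * (w j i : ℝ) := by
      intro i
      rw [hsum, ← hb i]
      push_cast
      congr 1
      exact Finset.sum_congr rfl fun p hp => by rw [hn p hp]
    have h1 : δ ≤ vl q pg s κ Finset.univ c' B := by
      refine hB.lc c' hc'0 B hBm (by rw [hps']; exact hAd) ?_ _ hb' ?_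
      · intro p p'
        rw [hps']
        obtain ⟨n, hn⟩ := hVi p
        obtain ⟨m, hm⟩ := hVi p'
        exact ⟨n - m, by rw [hn, hm]; push_cast; ring⟩
      · rw [hps']
        by_cases hz : ∃ p, V p ≠ 0
        · obtain ⟨p, hp⟩ := hz
          exact Or.inl ⟨p, p₁, by rw [hVF p₁ hp₁]; exact hp⟩
        · right
          push Not at hz
          have h2 : ∀ p, psum pg s c p = 0 := fun p =>
            le_antisymm (by rw [← hz p]; exact hVW p) (hW0 p)
          have h3 : b ≠ 0 := by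
            rcases hne with ⟨p, hp⟩ | h3
            · exact absurd (h2 p) hp
            · exact h3
          intro h4
          refine h3 (funext fun i => ?_)
          have h5 := congrFun h4 i
          have h6 : ∑ p ∈ F, n p * w (l p) i = 0 := by
            refine Finset.sum_eq_zero fun p hp => ?_
            have h7 := hn p hp
            rw [hz p, h2 p, sub_zero, zero_div] at h7
            have h8 : n p = 0 := by exact_mod_cast h7.symm
            rw [h8, zero_mul]
          simp only [h6, add_zero] at h5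
          exact h5
    rw [hval]
    have h2 : 0 ≤ ∑ p ∈ F, (V p - psum pg s c p) * (q - (κ (l p) : ℝ) / s (l p)) :=
      Finset.sum_nonneg hterm
    have := min_le_left δ (1 / 2 : ℝ)
    linarith

end Vale.Agent.P283.M647
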